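import Vale.Agent.P011L.Defs
import Mathlib.Algebra.MvPolynomial.PDeriv
import Mathlib.LinearAlgebra.Lagrange
import Mathlib.FieldTheory.IsAlgClosed.Basic
import Mathlib.LinearAlgebra.Matrix.NonsingularInverse
import Mathlib.Algebra.CharZero.Infinite

/-!
Polynomial curves in a matrix group stay in a closed subgroup with the same Lie algebra.
-/

set_option autoImplicit false
set_option linter.all false

namespace Vale.Agent.P011UX

open Matrix Polynomial Vale.Agent.P011L

variable {K J : Type} [Field K] [Fintype J] [DecidableEq J]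

section

variable {R S : Type} [CommRing R] [Algebra K R] [CommRing S] [Algebra K S]

/-- evaluation at a matrix -/
noncomputable abbrev ev (M : Matrix J J R) : MvPolynomial (J × J) K →ₐ[K] R :=
  MvPolynomial.aeval fun e => M e.1 e.2

/-- the derivative of `p` at `M` in the direction `Y` -/
noncomputable def dv (p : MvPolynomial (J × J) K) (M Y : Matrix J J R) : R :=
  ∑ e : J × J, ev M (MvPolynomial.pderiv e p) * Y e.1 e.2

theorem map_ev (f : R →ₐ[K] S) (M : Matrix J J R) (p : MvPolynomial (J × J) K) :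
    f (ev M p) = ev (M.map f) p := by
  rw [← AlgHom.comp_apply, MvPolynomial.comp_aeval]
  rfl

theorem map_dv (f : R →ₐ[K] S) (p : MvPolynomial (J × J) K) (M Y : Matrix J J R) :
    f (dv p M Y) = dv p (M.map f) (Y.map f) := by
  simp only [dv, map_sum, map_mul, map_ev]
  rfl

theorem dv_add (p : MvPolynomial (J × J) K) (M Y Z : Matrix J J R) :
    dv p M (Y + Z) = dv p M Y + dv p M Z := by
  simp only [dv, Matrix.add_apply, mul_add, Finset.sum_add_distrib]

theorem dv_smul (p : MvPolynomial (J × J) K) (M Y : Matrix J J R) (c : R) :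
    dv p M (c • Y) = c * dv p M Y := by
  simp only [dv, Matrix.smul_apply, smul_eq_mul, Finset.mul_sum, mul_left_comm]

theorem dv_sum {ι : Type} (p : MvPolynomial (J × J) K) (M : Matrix J J R) (s : Finset ι)
    (Y : ι → Matrix J J R) : dv p M (∑ i ∈ s, Y i) = ∑ i ∈ s, dv p M (Y i) := by
  simp only [dv, Matrix.sum_apply, Finset.mul_sum]
  exact Finset.sum_comm

theorem mm (f : R →ₐ[K] S) (M N : Matrix J J R) : (M * N).map f = M.map f * N.map f :=
  map_mul f.mapMatrix M N

/-- the left invariant derivations -/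
theorem ex_der (p : MvPolynomial (J × J) K) (X : Matrix J J K) : ∃ q : MvPolynomial (J × J) K,
    ∀ (R : Type) [CommRing R] [Algebra K R] (M : Matrix J J R),
      ev M q = dv p M (M * X.map (algebraMap K R)) := by
  refine ⟨dv p (of fun a b => MvPolynomial.X (a, b))
    ((of fun a b => MvPolynomial.X (a, b)) * X.map MvPolynomial.C), fun R _ _ M => ?_⟩
  have e : (of fun a b => (MvPolynomial.X (a, b) : MvPolynomial (J × J) K)).map (ev M) = M :=
    Matrix.ext fun a b => MvPolynomial.aeval_X _ _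
  rw [map_dv, mm, e]
  congr 2
  exact Matrix.ext fun a b => MvPolynomial.aeval_C _ _

end

theorem der_ev (Γ : Matrix J J K[X]) (p : MvPolynomial (J × J) K) :
    derivative (ev Γ p) = dv p Γ (Γ.map derivative) := by
  induction p using MvPolynomial.induction_on with
  | C a => simp [dv]
  | add p q a b => simp only [map_add, a, b, dv, add_mul, Finset.sum_add_distrib]
  | mul_X p e a =>
    have h : ∑ b : J × J, ev Γ (MvPolynomial.pderiv b (MvPolynomial.X e : MvPolynomial _ K)) *
        derivative (Γ b.1 b.2) =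
        derivative (Γ e.1 e.2) := by
      rw [Finset.sum_eq_single e (fun b _ h => by
        rw [MvPolynomial.pderiv_X_of_ne h.symm, map_zero, zero_mul]) (by simp),
        MvPolynomial.pderiv_X_self, map_one, one_mul]
    rw [map_mul, derivative_mul, a, MvPolynomial.aeval_X, ← h, dv, dv, Finset.sum_mul, Finset.mul_sum,
      ← Finset.sum_add_distrib]
    refine Finset.sum_congr rfl fun b _ => ?_
    rw [MvPolynomial.pderiv_mul, map_add, map_mul, map_mul, MvPolynomial.aeval_X, map_apply]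
    ring

/-- the Lie algebra -/
def LE (E : Subgroup (GL J K)) : Submodule K (Matrix J J K) where
  carrier := {X | ∀ p, Van K E p → ∀ g ∈ E, dv p g.1 (g.1 * X) = 0}
  add_mem' := fun a b p h g e => by rw [mul_add, dv_add, a p h g e, b p h g e, add_zero]
  zero_mem' := fun p h g e => by simp [dv]
  smul_mem' := fun c X a p h g e => by rw [mul_smul_comm, dv_smul, a p h g e, mul_zero]

/-- the curve lies in the group -/
def Cv (G : Subgroup (GL J K)) (Γ : Matrix J J K[X]) : Prop :=
  ∀ s : K, ∃ g ∈ G, g.1 = Γ.map (aeval s)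

/-- the group is closed -/
def Cl (E : Subgroup (GL J K)) : Prop := ∀ g : GL J K, (∀ p, Van K E p → ev g.1 p = 0) → g ∈ E

theorem map_C (A : Matrix J J K) (s : K) : (A.map C).map (aeval s : K[X] →ₐ[K] K) = A :=
  Matrix.ext fun a b => aeval_C _ _

theorem lin_map (X : Matrix J J K) (s : K) :
    (1 + (Polynomial.X : K[X]) • X.map C).map (aeval s : K[X] →ₐ[K] K) = 1 + s • X := by
  ext a b
  by_cases h : a = b <;> simp [h, one_apply, mul_comm s]

theorem lin_der (X : Matrix J J K) :
    (1 + (Polynomial.X : K[X]) • X.map C).map derivative = X.map C := by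
  ext1 a b
  by_cases h : a = b <;> simp [h, one_apply]

variable [CharZero K]

theorem pz {f : K[X]} (h : ∀ s : K, aeval s f = 0) : f = 0 :=
  Polynomial.funext fun s => by simpa using h s

theorem tan {G : Subgroup (GL J K)} {Γ : Matrix J J K[X]} (h : Cv G Γ) (s : K) {Y : Matrix J J K}
    (e : (Γ.map derivative).map (aeval s : K[X] →ₐ[K] K) = Γ.map (aeval s) * Y) : Y ∈ LE G :=
  fun p hp g hg => by
  obtain ⟨x, hx, a⟩ := h s
  have h1 : ev ((g * x⁻¹).1.map C * Γ) p = 0 := pz fun t => by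
    obtain ⟨y, hy, b⟩ := h t
    rw [map_ev, mm, map_C, ← b, ← Units.val_mul]
    exact hp (g * x⁻¹ * y) (mul_mem (mul_mem hg (inv_mem hx)) hy)
  have h2 : ((g * x⁻¹).1.map C * Γ).map derivative = (g * x⁻¹).1.map C * Γ.map derivative := by
    ext1 a b
    simp [mul_apply]
  have h3 : (aeval s : K[X] →ₐ[K] K) (derivative (ev ((g * x⁻¹).1.map C * Γ) p)) = 0 := by
    rw [h1, map_zero, map_zero]
  rwa [der_ev, map_dv, h2, mm, mm, map_C, e, ← a, ← mul_assoc, ← Units.val_mul,
    inv_mul_cancel_right] at h3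

theorem tan1 {G : Subgroup (GL J K)} {X : Matrix J J K} (h : ∀ s : K, ∃ g ∈ G, g.1 = 1 + s • X) :
    X ∈ LE G :=
  tan (Γ := 1 + (Polynomial.X : K[X]) • X.map C) (fun s => by rw [lin_map]; exact h s) 0
    (by rw [lin_der, map_C, lin_map, zero_smul, add_zero, one_mul])

theorem interp (Y : Matrix J J K[X]) : ∃ (N : ℕ) (c : ℕ → K[X]),
    Y = ∑ i ∈ Finset.range N, c i • (Y.map (aeval (i : K) : K[X] →ₐ[K] K)).map C := by
  classical
  obtain ⟨N, hN⟩ := (Set.finite_range fun e : J × J => (Y e.1 e.2).natDegree).bddAbove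
  refine ⟨N + 1, Lagrange.basis (Finset.range (N + 1)) Nat.cast, Matrix.ext fun a b => ?_⟩
  rw [Lagrange.eq_interpolate (f := Y a b) (s := Finset.range (N + 1)) (v := Nat.cast)
    Nat.cast_injective.injOn ((degree_le_natDegree).trans_lt (by
      rw [Finset.card_range]; exact_mod_cast Nat.lt_succ_of_le (hN ⟨(a, b), rfl⟩)))]
  simp [Lagrange.interpolate_apply, Matrix.sum_apply, mul_comm]

theorem cur0 {E : Subgroup (GL J K)} {Γ Y : Matrix J J K[X]} (h : Γ.map derivative = Γ * Y)
    (hY : ∀ s : K, Y.map (aeval s : K[X] →ₐ[K] K) ∈ LE E)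
    (h0 : ∀ p, Van K E p → ev (Γ.map (aeval (0 : K) : K[X] →ₐ[K] K)) p = 0)
    (p : MvPolynomial (J × J) K) (hp : Van K E p) : ev Γ p = 0 := by
  obtain ⟨N, c, e⟩ := interp Y
  have key : ∀ n : ℕ, ∀ p, Van K E p → Polynomial.X ^ n ∣ ev Γ p := fun n => by
    induction n with
    | zero => exact fun _ _ => by rw [pow_zero]; exact one_dvd _
    | succ n ih =>
      intro p hp
      have h1 : Polynomial.X ^ n ∣ derivative (ev Γ p) := by
        rw [der_ev, h, e, Finset.mul_sum, dv_sum]
        refine Finset.dvd_sum fun i _ => ?_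
        obtain ⟨q, hq⟩ := ex_der p (Y.map (aeval (i : K) : K[X] →ₐ[K] K))
        rw [mul_smul_comm, dv_smul]
        refine Dvd.dvd.mul_left (hq K[X] Γ ▸ ih q fun g hg => (hq K g.1).trans ?_) _
        exact hY i p hp g hg
      rw [X_pow_dvd_iff] at h1 ⊢
      rintro (_ | d) hd
      · rw [← h0 p hp, ← map_ev, coeff_zero_eq_aeval_zero]
      · have := h1 d (by omega)
        rw [coeff_derivative] at this
        exact (mul_eq_zero.1 this).resolve_right (Nat.cast_add_one_ne_zero d)
  exact Polynomial.ext fun d => X_pow_dvd_iff.1 (key (d + 1) p hp) d (Nat.lt_succ_self d)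

/-- **the curve lemma** -/
theorem cur [IsAlgClosed K] {E G : Subgroup (GL J K)} (hc : Cl E) (hL : LE G ≤ LE E)
    {γ : K → GL J K} (h : ∀ s, γ s ∈ G) (hp : ∀ a b, ∃ q : K[X], ∀ s, (γ s).1 a b = q.eval s)
    (h0 : γ 0 ∈ E) (s : K) : γ s ∈ E := by
  choose q hq using hp
  have e : ∀ s, (γ s).1 = (of q).map (aeval s : K[X] →ₐ[K] K) := fun s =>
    Matrix.ext fun a b => by simpa using hq a b s
  generalize of q = Γ at e
  have h1 : IsUnit Γ := by
    rw [isUnit_iff_isUnit_det, isUnit_iff_degree_eq_zero]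
    by_contra a
    obtain ⟨t, ht⟩ := IsAlgClosed.exists_root _ a
    have := (aeval t : K[X] →ₐ[K] K).map_det Γ
    rw [AlgHom.mapMatrix_apply, ← e, coe_aeval_eq_eval, ht.eq_zero] at this
    exact (γ t).det_ne_zero this.symm
  obtain ⟨Γ, rfl⟩ := h1
  have h2 : Γ.1.map derivative = Γ.1 * ((Γ⁻¹).1 * Γ.1.map derivative) :=
    (Units.mul_inv_cancel_left _ _).symm
  refine hc _ fun p hp => ?_
  rw [e, ← map_ev, cur0 h2 (fun t => hL (tan (fun t => ⟨_, h t, e t⟩) t (by rw [← mm, ← h2])))
    (fun p hp => e 0 ▸ hp _ h0) p hp, map_zero]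

theorem lin0 {G : Subgroup (GL J K)} {X : Matrix J J K} (h : X ∈ LE G) {p : MvPolynomial (J × J) K}
    (hp : Van K G p) {a b c : K} (e : ∀ s : K, ev (1 + s • X) p = a * s + b * s ^ 2 + c * s ^ 3) :
    a = 0 := by
  have h1 : ev (1 + (Polynomial.X : K[X]) • X.map C) p =
      C a * Polynomial.X + C b * Polynomial.X ^ 2 + C c * Polynomial.X ^ 3 :=
    sub_eq_zero.1 (pz fun s => by rw [map_sub, map_ev, lin_map, e]; simp)
  have h2 := congrArg (fun f => aeval (0 : K) (derivative f)) h1
  simp only [der_ev, map_dv, lin_der, map_C, lin_map, zero_smul, add_zero] at h2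
  have h3 := h p hp 1 (one_mem _)
  rw [Units.val_one, one_mul, h2] at h3
  simpa using h3

omit [CharZero K] in
theorem lin_fun (φ : Matrix J J K →ₗ[K] K) : ∃ p : MvPolynomial (J × J) K, ∀ M, ev M p = φ M :=
  ⟨∑ e : J × J, MvPolynomial.C (φ (single e.1 e.2 1)) * MvPolynomial.X e, fun M => by
    conv_rhs => rw [matrix_eq_sum_single M]
    simp only [map_sum, map_mul, MvPolynomial.aeval_C, MvPolynomial.aeval_X, Fintype.sum_prod_type]
    refine Finset.sum_congr rfl fun a _ => Finset.sum_congr rfl fun b _ => ?_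
    rw [mul_comm, ← smul_eq_mul, Algebra.algebraMap_self_apply, ← map_smul, smul_single, smul_eq_mul,
      mul_one]⟩

theorem lie_lin {G : Subgroup (GL J K)} {X : Matrix J J K} (h : X ∈ LE G)
    (φ : Matrix J J K →ₗ[K] K) (e : ∀ g ∈ G, φ g.1 = φ 1) : φ X = 0 := by
  obtain ⟨p, hp⟩ := lin_fun φ
  refine lin0 h (p := p - MvPolynomial.C (φ 1)) (fun g hg => ?_) (b := 0) (c := 0) fun s => ?_
  · exact (map_sub (ev g.1) _ _).trans (by rw [hp, e g hg]; simp)
  · rw [map_sub, hp]
    simp [mul_comm]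

theorem lie_tri {G : Subgroup (GL J K)} {X : Matrix J J K} (h : X ∈ LE G)
    (F : (J → K) →ₗ[K] (J → K) →ₗ[K] (J → K) →ₗ[K] K)
    (e : ∀ g ∈ G, ∀ x y z, F (g.1 *ᵥ x) (g.1 *ᵥ y) (g.1 *ᵥ z) = F x y z) (x y z : J → K) :
    F (X *ᵥ x) y z + F x (X *ᵥ y) z + F x y (X *ᵥ z) = 0 := by
  choose l hl using fun (x : J → K) (a : J) =>
    lin_fun (K := K) ((LinearMap.proj a).comp ((mulVecBilin K K).flip x))
  have hp : ∀ M : Matrix J J K, ev M (∑ c, ∑ b, ∑ a, l z c * (l y b * (l x a * MvPolynomial.C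
      (F (Pi.single a 1) (Pi.single b 1) (Pi.single c 1)))) - MvPolynomial.C (F x y z)) =
      F (M *ᵥ x) (M *ᵥ y) (M *ᵥ z) - F x y z := fun M => by
    rw [pi_eq_sum_univ' (M *ᵥ x), pi_eq_sum_univ' (M *ᵥ y), pi_eq_sum_univ' (M *ᵥ z)]
    simp only [map_sub, map_sum, map_mul, hl, MvPolynomial.aeval_C, LinearMap.sum_apply, map_smul,
      LinearMap.smul_apply, smul_eq_mul, Finset.mul_sum, Algebra.algebraMap_self_apply]
    rfl
  refine lin0 h (fun g hg => (hp g.1).trans (by rw [e g hg, sub_self]))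
    (b := F (X *ᵥ x) (X *ᵥ y) z + F (X *ᵥ x) y (X *ᵥ z) + F x (X *ᵥ y) (X *ᵥ z))
    (c := F (X *ᵥ x) (X *ᵥ y) (X *ᵥ z)) fun s => ?_
  simp only [hp, add_mulVec, one_mulVec, smul_mulVec, map_add, map_smul, LinearMap.add_apply,
    LinearMap.smul_apply, smul_eq_mul]
  ring

end Vale.Agent.P011UX
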