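import Vale.Agent.P011LC.Spin
import Vale.Agent.P011LG.Psi
import Mathlib.Algebra.Polynomial.Eval.Defs

/-!
The split groups of type `D₄` and `E₆` are generated by polynomial curves.
-/

set_option autoImplicit false
set_option linter.all false

namespace Vale.Agent.P011UX

open Vale.Agent.P011 Vale.Agent.P011.MPQ Vale.Agent.P011.D4 Vale.Agent.P011.D4.Oct
open Vale.Agent.P011.E6 Vale.Agent.P011.E6.Alb Vale.Agent.P011LG Vale.Agent.P011LC Matrix

variable {K : Type} [Field K]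

section

variable {U V W : Type} [AddCommGroup U] [Module K U] [AddCommGroup V] [Module K V] [AddCommGroup W]
  [Module K W]

variable (K) in
/-- polynomial maps -/
def PV (V : Type) [AddCommGroup V] [Module K V] : Submodule K (K → V) :=
  Submodule.span K {f | ∃ (k : ℕ) (v : V), f = fun s => s ^ k • v}

theorem pv_mon (k : ℕ) (v : V) : (fun s : K => s ^ k • v) ∈ PV K V :=
  Submodule.subset_span ⟨k, v, rfl⟩

theorem pv_const (v : V) : (fun _ : K => v) ∈ PV K V := by simpa using pv_mon (K := K) 0 v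

theorem pv_quad {f : K → V} {a b c : V} (h : ∀ s, f s = a + s • b + s ^ 2 • c) : f ∈ PV K V := by
  rw [funext h]
  exact add_mem (add_mem (pv_const a) (by simpa using pv_mon (K := K) 1 b)) (pv_mon 2 c)

theorem pv_of {f g : K → V} (h : f ∈ PV K V) (e : ∀ s, g s = f s) : g ∈ PV K V := funext e ▸ h

theorem pv_bil (B : U →ₗ[K] V →ₗ[K] W) {f : K → U} {g : K → V} (hf : f ∈ PV K U) (hg : g ∈ PV K V) :
    (fun s => B (f s) (g s)) ∈ PV K W := by
  induction hf using Submodule.span_induction with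
  | mem f h =>
    obtain ⟨k, u, rfl⟩ := h
    induction hg using Submodule.span_induction with
    | mem g h =>
      obtain ⟨l, v, rfl⟩ := h
      exact pv_of (pv_mon (l + k) (B u v)) fun s => by simp [pow_add, mul_smul]
    | zero => exact pv_of (zero_mem _) fun s => by simp
    | add _ _ _ _ a b => exact pv_of (add_mem a b) fun s => by simp
    | smul c _ _ a => exact pv_of ((PV K W).smul_mem c a) fun s => by simp
  | zero => exact pv_of (zero_mem _) fun s => by simp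
  | add _ _ _ _ a b => exact pv_of (add_mem a b) fun s => by simp
  | smul c _ _ a => exact pv_of ((PV K W).smul_mem c a) fun s => by simp

theorem pv_lin (l : V →ₗ[K] W) {g : K → V} (hg : g ∈ PV K V) : (fun s => l (g s)) ∈ PV K W :=
  pv_of (pv_bil ((LinearMap.lsmul K (V →ₗ[K] W)).flip l) (pv_const (1 : K)) hg) fun s => by simp

theorem pv_prod {f : K → U} {g : K → V} (hf : f ∈ PV K U) (hg : g ∈ PV K V) :
    (fun s => (f s, g s)) ∈ PV K (U × V) :=
  pv_of (add_mem (pv_lin (LinearMap.inl K U V) hf) (pv_lin (LinearMap.inr K U V) hg)) fun s => by simp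

theorem pv_pol {f : K → K} (hf : f ∈ PV K K) : ∃ q : Polynomial K, ∀ s, f s = q.eval s := by
  induction hf using Submodule.span_induction with
  | mem f h =>
    obtain ⟨k, u, rfl⟩ := h
    exact ⟨.C u * .X ^ k, fun s => by simp [mul_comm u]⟩
  | zero => exact ⟨0, fun s => by simp⟩
  | add _ _ _ _ a b => exact ⟨a.choose + b.choose, fun s => by
      rw [Polynomial.eval_add, ← a.choose_spec, ← b.choose_spec, Pi.add_apply]⟩
  | smul c _ _ a => exact ⟨.C c * a.choose, fun s => by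
      rw [Polynomial.eval_mul, Polynomial.eval_C, ← a.choose_spec, Pi.smul_apply, smul_eq_mul]⟩

end

/-- `E` contains the ends of the polynomial curves in `G` which start in `E` -/
def Ab {J : Type} [Fintype J] [DecidableEq J] (G E : Subgroup (GL J K)) : Prop :=
  ∀ γ : K → GL J K, (∀ s, γ s ∈ G) → (∀ a b, ∃ q : Polynomial K, ∀ s, (γ s).1 a b = q.eval s) →
    γ 0 ∈ E → γ 1 ∈ E

variable [CharZero K] {G E : Subgroup (GL (Fin 3 × Fin 3 × Fin 3) K)}

theorem ab_alb (h : Ab G E) {φ : K → Alb (1 : Kˣ) 1 1 ≃ₗ[K] Alb (1 : Kˣ) 1 1}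
    (h1 : ∀ s, (toA 1 1 1 1).symm (φ s) ∈ G) (h2 : ∀ x, (fun s => φ s x) ∈ PV K _)
    (h0 : (toA 1 1 1 1).symm (φ 0) ∈ E) : (toA 1 1 1 1).symm (φ 1) ∈ E := by
  refine h _ h1 (fun a b => ?_) h0
  obtain ⟨q, hq⟩ := pv_pol (pv_lin ((LinearMap.proj a).comp (Psi (1 : Kˣ) 1 1 1).symm.toLinearMap)
    (h2 (Psi 1 1 1 1 (Pi.single b 1))))
  refine ⟨q, fun s => ?_⟩
  have := toA_apply 1 1 1 1 ((toA 1 1 1 1).symm (φ s)) (Pi.single b 1)
  rw [MulEquiv.apply_symm_apply] at this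
  rw [← hq, this]
  simp

/-- the elements from their entries -/
def mkA : (K × K × K × Oct (1 : Kˣ) 1 1 × Oct (1 : Kˣ) 1 1 × Oct (1 : Kˣ) 1 1) →ₗ[K]
    Alb (1 : Kˣ) 1 1 where
  toFun x := ⟨x.1, x.2.1, x.2.2.1, x.2.2.2.1, x.2.2.2.2.1, x.2.2.2.2.2⟩
  map_add' _ _ := rfl
  map_smul' _ _ := rfl

/-- the conjugation -/
def stL : Oct (1 : Kˣ) 1 1 →ₗ[K] Oct (1 : Kˣ) 1 1 where
  toFun := star
  map_add' := star_add
  map_smul' := star_smul_oct

theorem gu_mem (u : Oct (1 : Kˣ) 1 1) (hu : Oct.norm u = 1) :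
    (toA 1 1 1 1).symm (Gu u hu) ∈ P011L.SD K :=
  (toA_mem_SD 1 1 1 1 (mul_one 1).symm).2 (by rw [MulEquiv.apply_symm_apply]; exact Gu_mem u hu)

theorem par (h : Ab G E) (hG : P011L.SD K ≤ G) {u v z : Oct (1 : Kˣ) 1 1} (hz : Oct.norm z = 0)
    (hu : Oct.norm u = 1) (hv : Oct.norm v = 1) (e : bil u z = bil v z) (e0 : bil u z ≠ 0)
    (h0 : (toA 1 1 1 1).symm (Gu u hu) ∈ E) : (toA 1 1 1 1).symm (Gu v hv) ∈ E := by
  obtain ⟨d, rfl⟩ : ∃ d, v = u + d := ⟨v - u, (add_sub_cancel u v).symm⟩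
  have h1 : bil d z = 0 := by rw [bil_add_left] at e; linear_combination -e
  have h2 : bil u d = -Oct.norm d := by rw [Oct.norm_add, hu] at hv; linear_combination hv
  let c : K → Oct (1 : Kˣ) 1 1 := fun s => u + s • d + ((s - s ^ 2) * Oct.norm d / bil u z) • z
  have h3 : ∀ s, Oct.norm (c s) = 1 := fun s => by
    simp only [c, Oct.norm_add, Oct.norm_smul, bil_add_left, bil_smul_left, bil_smul_right, hz, hu,
      h1, h2]
    field_simp
    ring
  have h4 : c ∈ PV K _ := pv_quad (a := u) (b := d + (Oct.norm d / bil u z) • z)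
    (c := -(Oct.norm d / bil u z) • z) fun s => by
      simp only [c]
      match_scalars <;> ring
  have h6 := pv_lin stL h4
  let m := LinearMap.mul K (Oct (1 : Kˣ) 1 1)
  have h5 := ab_alb h (φ := fun s => Gu (c s) (h3 s)) (fun s => hG (gu_mem _ _)) fun x => by
    have a := pv_prod (pv_bil m h4 (pv_const x.x1)) (pv_prod (pv_bil m (pv_const x.x2) h4)
      (pv_bil m (pv_bil m h6 (pv_const x.x3)) h6))
    exact pv_lin mkA (pv_prod (pv_const x.d1) (pv_prod (pv_const x.d2) (pv_prod (pv_const x.d3) a)))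
  have e1 : c 0 = u := by simp [c]
  have e2 : c 1 = u + d := by simp [c]
  simp only [e1, e2] at h5
  exact h5 h0

theorem gu_all (h : Ab G E) (hG : P011L.SD K ≤ G) (u : Oct (1 : Kˣ) 1 1) (hu : Oct.norm u = 1) :
    (toA 1 1 1 1).symm (Gu u hu) ∈ E := by
  have r : (1 : Kˣ) = 1 * 1 := (mul_one 1).symm
  have N := norm_zo (F := K) 1 1 1 1 r
  have B := bil_zo (F := K) 1 1 1 1 r
  have h1 : ∀ hu, (toA 1 1 1 1).symm (Gu (zo (1 : Kˣ) 1 1 1 1 1 0 0 0 0 0 0) hu) ∈ E := by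
    rw [show zo (1 : Kˣ) 1 1 1 1 1 0 0 0 0 0 0 = 1 by apply ext8 <;> simp [zo]]
    intro hu
    rw [show Gu 1 hu = 1 from LinearEquiv.ext fun x => by simp [Gu, dgm_apply], map_one]
    exact one_mem _
  have h2 : ∀ α β v0 v1 v2 w0 w1 w2, α ≠ 0 → ∀ hu,
      (toA 1 1 1 1).symm (Gu (zo (1 : Kˣ) 1 1 1 α β v0 v1 v2 w0 w1 w2) hu) ∈ E :=
    fun α β v0 v1 v2 w0 w1 w2 a hu => par h hG (u := zo 1 1 1 1 α 1 (α - 1) 0 0 1 0 0)
      (z := zo 1 1 1 1 0 1 0 0 0 0 0 0) (by rw [N]; ring) (by rw [N]; ring) hu (by rw [B, B]; ring)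
      (by rw [B]; simpa using a) (par h hG (z := zo 1 1 1 1 1 0 0 0 0 0 0 0) (by rw [N]; ring)
        (by rw [N]; ring) _ (by rw [B, B]; ring) (by rw [B]; simp) (h1 _))
  obtain ⟨α, β, v0, v1, v2, w0, w1, w2, rfl⟩ : ∃ α β v0 v1 v2 w0 w1 w2,
    u = zo (1 : Kˣ) 1 1 1 α β v0 v1 v2 w0 w1 w2 := ⟨_, _, _, _, _, _, _, _, (zo_eta 1 1 1 1 u).symm⟩
  by_cases a : α = 0
  swap
  · exact h2 _ _ _ _ _ _ _ _ a hu
  by_cases b : β = 0
  swap
  · exact par h hG (u := zo 1 1 1 1 1 β (β - 1) 0 0 1 0 0) (z := zo 1 1 1 1 1 0 0 0 0 0 0 0)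
      (by rw [N]; ring) (by rw [N]; ring) hu (by rw [B, B]; ring) (by rw [B]; simpa using b)
      (h2 _ _ _ _ _ _ _ _ one_ne_zero _)
  subst a b
  have e := hu
  rw [N] at e
  exact par h hG (u := zo 1 1 1 1 4 0 (-v0) (-v1) (-v2) (-w0) (-w1) (-w2))
    (z := zo 1 1 1 1 (-1) 1 v0 v1 v2 w0 w1 w2) (by rw [N]; linear_combination e)
    (by rw [N]; linear_combination e) hu (by rw [B, B]; linear_combination (-4) * e)
    (by rw [B]; exact fun x => two_ne_zero (α := K) (by linear_combination x + 2 * e))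
    (h2 _ _ _ _ _ _ _ _ (by norm_num) _)

variable [IsAlgClosed K]

theorem sd_le (h : Ab G E) (hG : P011L.SD K ≤ G) : P011L.SD K ≤ E := fun g hg => by
  have := (Subgroup.closure_le (E.comap (toA (1 : Kˣ) 1 1 1).symm.toMonoidHom)).2
    (by rintro _ ⟨u, hu, rfl⟩; exact gu_all h hG u hu)
    (Spin_le_GS ((toA_mem_SD 1 1 1 1 (mul_one 1).symm).1 hg))
  simpa using this

omit [IsAlgClosed K] in
theorem sf_quad (i : Fin 6) (u : Oct (1 : Kˣ) 1 1) (x : Alb (1 : Kˣ) 1 1) (s : K) :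
    sf i (s • u) x = x + s • (2⁻¹ : K) • (sf i u x - sf i (-u) x) +
      s ^ 2 • ((2⁻¹ : K) • (sf i u x + sf i (-u) x) - x) := by
  fin_cases i <;> ext1 <;>
    simp only [sf, d1_add, d2_add, d3_add, x1_add, x2_add, x3_add, d1_sub, d2_sub, d3_sub, x1_sub,
      x2_sub, x3_sub, d1_smul, d2_smul, d3_smul, x1_smul, x2_smul, x3_smul, bil_smul_left,
      bil_neg_left, Oct.norm_smul, Oct.norm_neg, star_smul_oct, mul_smul_oct, smul_mul_oct, neg_mul,
      mul_neg, star_neg] <;> first | ring1 | (match_scalars <;> ring1)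

theorem se_le (h : Ab (P011L.SE K) E) : P011L.SE K ≤ E := fun g hg => by
  have r : (1 : Kˣ) = 1 * 1 := (mul_one 1).symm
  obtain ⟨φ, h1, d, h2, h3, h4, h5, h6⟩ :=
    inv_eq (fun t => IsAlgClosed.exists_eq_mul_self t) ((toA_mem 1 1 1 1 r).2 hg)
  rw [← (toA (1 : Kˣ) 1 1 1).symm_apply_apply g, h6, map_mul]
  refine mul_mem ((Subgroup.closure_le (E.comap (toA (1 : Kˣ) 1 1 1).symm.toMonoidHom)).2 ?_ h1)
    (sd_le h P011LT.SD_le ((toA_mem_SD 1 1 1 1 r).2 ?_))
  · rintro _ ⟨i, u, rfl⟩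
    have := ab_alb h (φ := fun s => sl i (s • u)) (fun s => by
      rw [← toA_mem 1 1 1 1 r, MulEquiv.apply_symm_apply]; exact sl_mem _ _)
      (fun x => pv_quad (sf_quad i u x))
      (by rw [zero_smul, sl_zero, map_one]; exact one_mem _)
    rwa [one_smul] at this
  · rw [MulEquiv.apply_symm_apply]
    exact ⟨h2, h3, h4, h5⟩

end Vale.Agent.P011UX
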