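import Vale.Agent.P011UX.Cur
import Vale.Agent.P011UX.Gen
import Vale.Agent.P011LM.Lie
import Vale.Agent.P011LN.Lie
import Vale.Agent.P011UH.IF
import Vale.Agent.P011U.IF

/-!
Recognition of the types `D₄` and `E₆`.
-/

set_option autoImplicit false
set_option linter.all false

namespace Vale.Agent.P011UX

open Matrix Vale.Agent.P011L Vale.Agent.P183CH Vale.Agent.P011U Vale.Agent.P011UH
  Vale.Agent.P183CH.Chev

variable {K I J : Type} [Field K] [Fintype I] [DecidableEq I] [Fintype J] [DecidableEq J]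

theorem cl_of (cl : CL) {D : Chev} (hD : SC D) [Infinite K] {E : Subgroup (GL J K)}
    (ψ : D.grp K ≃* E) (h1 : Pol ψ) (h2 : Pol ψ.symm) : Cl E := fun g hg => by
  choose p hp using h1
  choose q hq using h2
  have e : ∀ x : E, (of q).map (ev x.1.1) = (ψ.symm x).1.1 := fun x =>
    Matrix.ext fun i j => (hq i j x).symm
  obtain ⟨y, hy, a⟩ := (cl D hD K K ((of q).map (ev g.1))).1 fun r hr => by
    refine (map_ev (ev g.1) (of q) r).symm.trans (hg _ fun x hx => ?_)
    exact (map_ev (ev x.1) (of q) r).trans (by rw [e ⟨x, hx⟩]; exact hr _ (ψ.symm ⟨x, hx⟩).2)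
  have b : g = (ψ ⟨y, hy⟩).1 := Units.ext (Matrix.ext fun i j => by
    have := hg (ev (of q) (p i j) - MvPolynomial.X (i, j)) fun x hx => by
      refine (map_sub (ev x.1) _ _).trans ?_
      rw [map_ev, e ⟨x, hx⟩, MvPolynomial.aeval_X, sub_eq_zero]
      exact (hp i j _).symm.trans (by rw [MulEquiv.apply_symm_apply])
    rw [map_sub, map_ev, ← a, MvPolynomial.aeval_X, sub_eq_zero] at this
    exact this.symm.trans (hp i j ⟨y, hy⟩).symm)
  exact b ▸ (ψ ⟨y, hy⟩).2

theorem hom_ext {G H : Type} [Group G] [Group H] {s : Set G} (F F' : Subgroup.closure s →* H)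
    (h : ∀ g (hg : g ∈ s), F ⟨g, Subgroup.subset_closure hg⟩ = F' ⟨g, Subgroup.subset_closure hg⟩)
    (g : Subgroup.closure s) : F g = F' g := by
  have : Subgroup.closure s ≤ (F.eqLocus F').map (Subgroup.closure s).subtype :=
    (Subgroup.closure_le _).2 fun g hg => ⟨_, h g hg, rfl⟩
  obtain ⟨x, hx, e⟩ := this g.2
  exact (Subtype.ext e : x = g) ▸ hx

theorem rec_big (rec : REC) (cl : CL) {D : Chev} (hD : SC D) {A : Matrix I I ℤ}
    {e f : I → Matrix J J ℤ} {μ : I → J → ℤ} (ε : Fin D.r ≃ I) (hA : ∀ i j, A (ε i) (ε j) = D.A i j)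
    (hm : Min A e f μ) [IsAlgClosed K] [CharZero K] {G : Subgroup (GL J K)} (h1 : gen K e f ≤ G)
    (h2 : LE G ≤ LE (gen K e f)) (h3 : Ab G (gen K e f) → G ≤ gen K e f) :
    ∃ ψ : D.grp K ≃* G, Iso ψ ∧ ∀ (σ : K →+* K) (g : D.grp K),
      (ψ (fm D σ g)).1.1 = (ψ g).1.1.map σ := by
  obtain ⟨ψ, a, b⟩ := rec D hD I J A e f μ ε hA hm K
  obtain rfl : G = gen K e f :=
    le_antisymm (h3 fun γ x y z => cur (cl_of cl hD ψ a.pol a.pol') h2 x y z 1) h1
  refine ⟨ψ, a, fun σ g => ?_⟩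
  let F := ((gen K e f).subtype.comp ψ.toMonoidHom).comp (fm D σ)
  let F' := (gm σ).comp ((gen K e f).subtype.comp ψ.toMonoidHom)
  have c : ∀ (M : Matrix J J ℤ) (t : K), 1 + σ t • M.map (Int.cast : ℤ → K) =
      (1 + t • M.map (Int.cast : ℤ → K)).map σ := fun M t => by
    ext a b
    by_cases h : a = b <;> simp [h, one_apply]
  refine congrArg Units.val (hom_ext F F' ?_ g)
  rintro g ⟨i, t, h | h⟩
  · exact Units.ext (((b _ i (σ t)).1 ((congrArg (·.map σ) h).trans (map_ex σ _ t))).trans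
      ((c _ t).trans (congrArg (·.map σ) ((b _ i t).1 h).symm)))
  · exact Units.ext (((b _ i (σ t)).2 ((congrArg (·.map σ) h).trans (map_ex σ _ t))).trans
      ((c _ t).trans (congrArg (·.map σ) ((b _ i t).2 h).symm)))

/-- the rational matrix -/
abbrev cq (M : Matrix J J ℤ) : Matrix J J ℚ := M.map Int.cast

theorem min_of {A : Matrix I I ℤ} {e f : I → Matrix J J ℤ} {w : J → I → ℤ}
    (ee : ∀ i, cq (e i) * cq (e i) = 0) (ff : ∀ i, cq (f i) * cq (f i) = 0)
    (ef : ∀ i, cq (e i) * cq (f i) - cq (f i) * cq (e i) = diagonal fun a => (w a i : ℚ))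
    (ef' : ∀ i j, i ≠ j → cq (e i) * cq (f j) = cq (f j) * cq (e i))
    (he : ∀ i, P011LN.Sh w (A i) (cq (e i))) (hf : ∀ i, P011LN.Sh w (-A i) (cq (f i)))
    (l : I → List J) (sc : ∀ i j, ((l i).map fun a => w a j).sum = if j = i then 1 else 0) :
    Min A e f fun i a => w a i := by
  let φ : Matrix J J ℤ →+* Matrix J J ℚ := (Int.castRingHom ℚ).mapMatrix
  have inj : Function.Injective φ := fun _ _ h =>
    Matrix.ext fun a b => Int.cast_injective (congrFun (congrFun h a) b)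
  refine ⟨fun i => inj ?_, fun i => inj ?_, fun i => inj ?_, fun i j h => inj ?_,
    fun i a b h j => congrFun (he i a b (Int.cast_ne_zero.2 h)) j,
    fun i a b h j => (congrFun (hf i a b (Int.cast_ne_zero.2 h)) j).trans (sub_eq_add_neg _ _).symm,
    eq_top_iff.2 fun v _ => ?_⟩
  · rw [map_mul, map_zero]; exact ee i
  · rw [map_mul, map_zero]; exact ff i
  · rw [map_sub, map_mul, map_mul]
    exact (ef i).trans (diagonal_map (f := (Int.cast : ℤ → ℚ)) Int.cast_zero).symm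
  · rw [map_mul, map_mul]; exact ef' i j h
  · rw [pi_eq_sum_univ' v]
    refine sum_mem fun i _ => Submodule.smul_mem _ _ ?_
    rw [show (Pi.single i 1 : I → ℤ) = ((l i).map w).sum from funext fun j => by
      rw [Pi.single_apply, ← sc, Pi.list_sum_apply, List.map_map]; rfl]
    refine list_sum_mem fun x hx => ?_
    obtain ⟨a, -, rfl⟩ := List.mem_map.1 hx
    exact Submodule.subset_span ⟨a, rfl⟩

section E6

open Vale.Agent.P011LM

/-- the generators over the integers -/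
def eE (r : Fin 6) : Matrix P011LM.J P011LM.J ℤ := of fun a b => if b = ps r a then cs r a else 0

def fE (r : Fin 6) : Matrix P011LM.J P011LM.J ℤ :=
  of fun a b => if b = ps r a then cs r (ps r a) else 0

theorem eE_map (r : Fin 6) : (eE r).map (Int.cast : ℤ → K) = ee r := by
  ext a b
  simp [eE, ee, mono]

theorem fE_map (r : Fin 6) : (fE r).map (Int.cast : ℤ → K) = ff r := by
  ext a b
  simp [fE, ff, mono]

theorem minE : Min (of al) eE fE fun i a => w a i := by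
  refine min_of ?_ ?_ ?_ ?_ ?_ ?_ ![[(0, 0, 0), (1, 0, 0)], [(0, 0, 0), (0, 1, 0), (1, 0, 0),
    (1, 0, 0)], [(1, 0, 0), (1, 1, 0), (1, 2, 0)], [(1, 0, 0), (1, 1, 0)], [(1, 0, 0)],
    [(0, 0, 0), (1, 0, 0), (2, 1, 0)]] (by decide +kernel) <;> simp only [cq, eE_map, fE_map]
  exacts [fun i => (ee_nl i).1, fun i => (ff_nl i).1, fun i => (hh_eq i).symm, fun i j => ee_cm,
    ee_sh, ff_sh]

theorem alE (i j : Fin 6) : al (![0, 5, 1, 2, 3, 4] i) (![0, 5, 1, 2, 3, 4] j) =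
    CartanMatrix.E₆ i j := by fin_cases i <;> fin_cases j <;> rfl

theorem e6 (rec : REC) (cl : CL) {D : Chev} (hD : SC D) (h : P011UH.Ty D CartanMatrix.E₆)
    [IsAlgClosed K] [CharZero K] : ∃ ψ : D.grp K ≃* SE K, Iso ψ := by
  obtain ⟨ε, hε⟩ := h
  have hx : ∀ r s, ((ee_nl r).u s).1 ∈ gen K eE fE := fun r s =>
    Subgroup.subset_closure ⟨r, s, .inl (by rw [eE_map]; rfl)⟩
  have hy : ∀ r s, ((ff_nl r).u s).1 ∈ gen K eE fE := fun r s =>
    Subgroup.subset_closure ⟨r, s, .inr (by rw [fE_map]; rfl)⟩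
  let E := (gen K eE fE).subgroupOf (SE K)
  have hL : ∀ X, X ∈ ⨅ g ∈ E, (LE (gen K eE fE)).comap (cj g) ↔
      ∀ g ∈ E, cj g X ∈ LE (gen K eE fE) := fun X => by simp [Submodule.mem_iInf]
  have k2 : ∀ X (a : Nl X), (∀ s, a.u s ∈ E) → X ∈ ⨅ g ∈ E, (LE (gen K eE fE)).comap (cj g) :=
    fun X a b => (hL X).2 fun g c => tan1 fun s =>
      ⟨(g * a.u s * g⁻¹).1, mul_mem (mul_mem c (b s)) (inv_mem c), cj_u a g s⟩
  refine (rec_big rec cl hD (ε.trans ⟨![0, 5, 1, 2, 3, 4], ![0, 2, 3, 4, 5, 1], by decide,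
    by decide⟩) (fun i j => ?_) minE ((Subgroup.closure_le _).2 ?_) (fun X hX => ?_) se_le).imp
    fun _ h => h.1
  · exact (alE _ _).trans (hε i j)
  · rintro g ⟨r, s, h | h⟩
    · rw [show g = ((ee_nl r).u s).1 from Units.ext (by rw [h, eE_map]; rfl)]
      exact Subtype.prop _
    · rw [show g = ((ff_nl r).u s).1 from Units.ext (by rw [h, fE_map]; rfl)]
      exact Subtype.prop _
  · have := (hL _).1 (lie (E := E) hx hy
      (fun g c X d => (hL _).2 fun g' c' => cj_mul g' g X ▸ (hL X).1 d _ (mul_mem c' c))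
      (fun r => k2 _ (ee_nl r) (hx r)) (fun r => k2 _ (ff_nl r) (hy r))
      ⟨lie_tri hX tri fun g hg => tri_iv ⟨g, hg⟩⟩) 1 (one_mem _)
    simpa [cj_apply] using this

end E6

section D4

open Vale.Agent.P011LN

/-- the generators over the integers -/
def eD (r : Fin 4) : Matrix P011LN.I P011LN.I ℤ := of fun a b => if a = rf r b then ce r b else 0

def fD (r : Fin 4) : Matrix P011LN.I P011LN.I ℤ := of fun a b => if a = rf r b then cf r b else 0

theorem minD : Min (of al) eD fD fun i a => wt a i :=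
  min_of (fun i => (nl_em i).sq) (fun i => (nl_fm i).sq) ef_eq (fun i j => em_fm) sh_em sh_fm
    ![[(1, 0, 2)], [(1, 1, 2)], [(1, 2, 2)], [(1, 0, 2), (2, 1, 0)]] (by decide +kernel)

theorem alD (i j : Fin 4) : al (Equiv.swap 1 3 i) (Equiv.swap 1 3 j) = CartanMatrix.D 4 i j := by
  fin_cases i <;> fin_cases j <;> rfl

theorem d4 (rec : REC) (cl : CL) {D : Chev} (hD : SC D) (h : P011UH.Ty D (CartanMatrix.D 4))
    [IsAlgClosed K] [CharZero K] : ∃ ψ : D.grp K ≃* SD K, Iso ψ ∧ ∀ (σ : K →+* K) (g : D.grp K),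
      (ψ (P011U.fm D σ g)).1.1 = (ψ g).1.1.map σ := by
  obtain ⟨ε, hε⟩ := h
  have hx : ∀ r s, (ux (nl_em r) s).1 ∈ gen K eD fD := fun r s =>
    Subgroup.subset_closure ⟨r, s, .inl rfl⟩
  have hy : ∀ r s, (ux (nl_fm r) s).1 ∈ gen K eD fD := fun r s =>
    Subgroup.subset_closure ⟨r, s, .inr rfl⟩
  have k2 : ∀ X (a : Nl X), (∀ s, (ux a s).1 ∈ gen K eD fD) → ∀ g : SD K, g.1 ∈ gen K eD fD →
      g.1.1 * X * (g⁻¹).1.1 ∈ LE (gen K eD fD) := fun X a b g c => tan1 fun s =>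
    ⟨(ux (a.conj g) s).1, by rw [ux_conj a]; exact mul_mem (mul_mem c (b s)) (inv_mem c), rfl⟩
  refine rec_big rec cl hD (ε.trans (Equiv.swap 1 3)) (fun i j => ?_) minD
    ((Subgroup.closure_le _).2 ?_) (fun X hX => ?_) fun h => sd_le h le_rfl
  · exact (alD _ _).trans (hε i j)
  · rintro g ⟨r, s, h | h⟩
    · rw [show g = (ux (nl_em r) s).1 from Units.ext h]
      exact Subtype.prop _
    · rw [show g = (ux (nl_fm r) s).1 from Units.ext h]
      exact Subtype.prop _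
  · refine (Submodule.span_le.2 ?_ : L0 ((gen K eD fD).subgroupOf (SD K)) ≤ _)
      (lie_span hx hy ⟨lie_tri hX tri fun g hg => sd_inv ⟨g, hg⟩, fun a b e => ?_, fun i => ?_⟩)
    · rintro _ ⟨g, c, r, rfl | rfl⟩
      exacts [k2 _ _ (hx r) g c, k2 _ _ (hy r) g c]
    · exact lie_lin hX (entryLinearMap K K a b) fun g hg =>
        (sd_bd ⟨g, hg⟩ a b e).trans (one_apply_ne fun x => e (congrArg blk x)).symm
    · exact funext fun a => lie_lin hX ((LinearMap.proj a).comp ((mulVecBilin K K).flip _))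
        fun g hg => congrFun ((sd_fx ⟨g, hg⟩ i).trans (one_mulVec _).symm) a

end D4

theorem re_of (rec : REC) (cl : CL) : RE := fun _ hD h _ _ _ _ => e6 rec cl hD h

theorem rd_of (rec : REC) (cl : CL) : RD := fun _ hD h _ _ _ _ =>
  (d4 rec cl hD h).imp fun _ h => h.1

theorem ise (rec : REC) (cl : CL) : ISE := fun _ hD e h _ _ _ _ =>
  (e6 rec cl hD ⟨e, fun i j => (h i j).symm⟩).imp fun _ h => ⟨h.pol, h.pol'⟩

theorem isd (rec : REC) (cl : CL) : ISD := fun _ hD e h _ _ _ _ =>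
  (d4 rec cl hD ⟨e, fun i j => (h i j).symm⟩).imp fun _ h => ⟨h.1.pol, h.1.pol', h.2⟩

end Vale.Agent.P011UX
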